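import Vale.Agent.P064.Tilde

/-! The second Kahn-Kalai bound with a density-dependent exponent. -/

namespace Vale.Agent.Results.P064.DensityExponent

open Vale.Agent.P064 Finset

lemma expo_le {n v : ℕ} (hn : 2 ≤ n) (hv : v ≤ n) (H : SimpleGraph (Fin v)) (he : H ≠ ⊥)
    (F : H.Subgraph) :
    -Real.log (pE n H) * F.edgeSet.ncard ≤ Real.log 2 + F.verts.ncard * Real.log n := by
  classical
  obtain ⟨⟨hq0, hq1⟩, hyp⟩ := pE_spec hv H
  have hq := pE_pos hn hv H he
  have h := aut_bound hq0 hq1 H hyp F.verts.toFinite.toFinset F.edgeSet.toFinite.toFinset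
    (fun e h => F.edgeSet_subset ((Set.Finite.mem_toFinset _).1 h))
    (fun e h a ha => (Set.Finite.mem_toFinset _).2
      (F.mem_verts_of_mem_edge ((Set.Finite.mem_toFinset _).1 h) ha)) {1}
    (fun σ hσ => by rw [mem_singleton] at hσ; subst hσ; simp)
    (fun σ hσ τ hτ _ => by rw [mem_singleton.1 hσ, mem_singleton.1 hτ])
  rw [card_singleton, Nat.cast_one, ← Set.ncard_eq_toFinset_card, ← Set.ncard_eq_toFinset_card] at h
  have hn0 : (0 : ℝ) < n := by exact_mod_cast (show 0 < n by omega)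
  have hl := Real.log_nonneg h
  rw [Real.log_mul (mul_pos two_pos (pow_pos hn0 _)).ne' (pow_pos hq _).ne',
    Real.log_mul two_ne_zero (pow_pos hn0 _).ne', Real.log_pow, Real.log_pow] at hl
  linarith

open scoped Classical in
theorem result : ∃ K : ℝ, ∀ n v : ℕ, 2 ≤ n → v ≤ n → ∀ H : SimpleGraph (Fin v), H ≠ ⊥ →
    (∀ D : ℕ, (∀ a, (H.neighborSet a).ncard ≤ D) →
      pc n H ≤ K * pE n H * Real.log n
          * min (Real.log n) D ^ min 1 (-Real.log (pE n H) / Real.log n)
        ∧ pETilde n H ≤ K * pE n H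
          * min (Real.log n) D ^ min 1 (-Real.log (pE n H) / Real.log n)) ∧
    ∀ F : H.Subgraph, 0 < F.edgeSet.ncard →
      (F.verts.ncard : ℝ) * Real.log (Real.log n) ≤ F.edgeSet.ncard →
      pc n H ≤ K * pE n H * Real.log n ∧ pETilde n H ≤ K * pE n H := by
  obtain ⟨K₁, h₁⟩ := pc_le
  obtain ⟨K₂, h₂⟩ := pETilde_le
  set K := max (max K₁ K₂) 0 with hK
  have hK0 : 0 ≤ K := le_max_right _ _
  have hK1 : K₁ ≤ K := (le_max_left _ _).trans (le_max_left _ _)
  have hK2 : K₂ ≤ K := (le_max_right _ _).trans (le_max_left _ _)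
  refine ⟨K * Real.exp 2, fun n v hn hv H he => ?_⟩
  have hn2 : (2 : ℝ) ≤ n := by exact_mod_cast hn
  have hL : 0 < Real.log n := Real.log_pos (by linarith)
  have hL2 : (1 : ℝ) / 2 < Real.log n := by
    linarith [Real.log_two_gt_d9, Real.log_le_log two_pos hn2]
  have hq := pE_pos hn hv H he
  have hq1 := (pE_spec hv H).1.2
  set q := pE n H with hqdef
  set L := Real.log n with hLdef
  set s := min 1 (-Real.log q / L) with hs
  have hs0 : 0 ≤ s :=
    le_min zero_le_one (div_nonneg (by linarith [Real.log_nonpos hq.le hq1]) hL.le)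
  have hsL : 1 ≤ s ∨ -Real.log q ≤ s * L := by
    rcases le_total 1 (-Real.log q / L) with h | h
    · exact Or.inl (le_min le_rfl h)
    · exact Or.inr (by rw [hs, min_eq_right h, div_mul_cancel₀ _ hL.ne'])
  have hKe : K ≤ K * Real.exp 2 := le_mul_of_one_le_right hK0 (Real.one_le_exp (by norm_num))
  refine ⟨fun D hD => ?_, fun F hE hF => ?_⟩
  · obtain ⟨e0, he0⟩ := SimpleGraph.edgeSet_nonempty.2 he
    have hD1 : 1 ≤ D := by
      induction e0 using Sym2.ind with
      | h a b => exact le_trans ((Set.ncard_pos).2 ⟨b, he0⟩) (hD a)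
    have hD1' : (1 : ℝ) ≤ D := by exact_mod_cast hD1
    set Λ := min (1 + L) (D : ℝ) with hΛ
    have hΛ1 : 1 ≤ Λ := le_min (by linarith) hD1'
    have hM : Λ ≤ 3 * min L (D : ℝ) := by
      rcases le_total L (D : ℝ) with h | h
      · rw [min_eq_left h]; linarith [min_le_left (1 + L) (D : ℝ)]
      · rw [min_eq_right h]; linarith [min_le_right (1 + L) (D : ℝ)]
    have hw : 1 + L ≤ Λ ∨
        ∀ z : Fin v, ((H.edgeFinset.filter fun e => z ∈ e).card : ℝ) ≤ Λ := by
      rcases le_total (1 + L) (D : ℝ) with h | h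
      · exact Or.inl (le_min le_rfl h)
      · exact Or.inr fun z => by
          rw [hΛ, min_eq_right h]
          exact_mod_cast deg_card_le H hD z
    have hm0 : 0 ≤ min L (D : ℝ) := le_min hL.le (by linarith)
    constructor
    · exact (h₁ n v hn hv H he s hs0 (min_le_left _ _) hsL Λ _ hΛ1 (min_le_left _ _) hM hw).trans
        (by gcongr; exact hK1.trans hKe)
    · exact (h₂ n v hn hv H he s hs0 (min_le_left _ _) hsL Λ _ hΛ1 (min_le_left _ _) hM hw).trans
        (by gcongr; exact hK2.trans hKe)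
  have hLs : L ^ s ≤ Real.exp 2 := by
    rw [Real.rpow_def_of_pos hL, Real.exp_le_exp]
    rcases le_total (Real.log L) 0 with hl | hl
    · linarith [mul_nonpos_iff.2 (Or.inr ⟨hl, hs0⟩)]
    have h1 : (1 : ℝ) ≤ F.edgeSet.ncard := by exact_mod_cast hE
    have h3 : Real.log 2 * Real.log L ≤ L := by
      have := Real.log_le_sub_one_of_pos hL
      have : Real.log 2 ≤ 1 := by linarith [Real.log_two_lt_d9]
      nlinarith
    have h4 := mul_le_mul_of_nonneg_right (expo_le hn hv H he F) hl
    have h5 := mul_le_mul_of_nonneg_right hF hL.le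
    have h6 : s * L ≤ -Real.log q := (le_div_iff₀ hL).1 (min_le_right _ _)
    have h7 := mul_le_mul_of_nonneg_right h6
      (mul_nonneg hl (Nat.cast_nonneg (α := ℝ) F.edgeSet.ncard))
    have h8 := le_mul_of_one_le_left hL.le h1
    refine le_of_mul_le_mul_right ?_ (mul_pos hL (show (0 : ℝ) < F.edgeSet.ncard by linarith))
    linarith
  have hcalc : K * q * L ^ s ≤ K * Real.exp 2 * q :=
    (mul_le_mul_of_nonneg_left hLs (by positivity)).trans_eq (by ring)
  constructor
  · refine (h₁ n v hn hv H he s hs0 (min_le_left _ _) hsL (1 + L) L (by linarith) le_rfl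
      (by linarith) (Or.inl le_rfl)).trans ?_
    calc K₁ * q * L * L ^ s ≤ K * q * L * L ^ s := by gcongr
      _ = K * q * L ^ s * L := by ring
      _ ≤ _ := mul_le_mul_of_nonneg_right hcalc hL.le
  · refine (h₂ n v hn hv H he s hs0 (min_le_left _ _) hsL (1 + L) L (by linarith) le_rfl
      (by linarith) (Or.inl le_rfl)).trans ?_
    calc K₂ * q * L ^ s ≤ K * q * L ^ s := by gcongr
      _ ≤ _ := hcalc

end Vale.Agent.Results.P064.DensityExponent
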