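import Vale.Agent.P064.Sparse.Chunk
import Vale.Agent.P064.Tw.Plumb

/-! The second Kahn-Kalai bound, with a vanishing power of `log n`, in the sparse range. -/

namespace Vale.Agent.Results.P064.SparseRange

open Finset Vale.Agent.P064 Vale.Agent.P064.Tw

open scoped Classical in
lemma emb_at {n v : ℕ} (hn : 2 ≤ n) (hv : v ≤ n) (H : SimpleGraph (Fin v)) {q : ℝ}
    (hq0 : 0 < q) (hqe : Real.exp 1 * q ≤ 1) (hle : pE n H ≤ q)
    (hlow : Real.log n ≤ (n : ℝ) * q) (hhigh : 4 * (1 + Real.log ((n : ℝ) * q)) ≤ Real.log n)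
    (v0 : Fin v) (X : Finset (Fin n)) (DF : Finset (Sym2 (Fin n))) (hP : IsPattern X DF) :
    ((embs v0 H.edgeFinset X DF).card : ℝ) ≤ (n : ℝ) ^ X.card
      * (Real.exp (400 * (1 + (1 + Real.log ((n : ℝ) * q)) * Real.log (Real.log n) / Real.log n))
          * q) ^ DF.card := by
  set C : Setup (Fin n) (Fin v) := ⟨v0, DF, H.edgeFinset, n, q⟩ with hC
  obtain ⟨⟨hp0, hp1⟩, hyp⟩ := pE_spec hv H
  have hH : C.Hyp := ⟨hn, hq0, hqe, by simpa using hv, hP.ndF, fun A E hE hA Γ hΓ hinj =>
    (aut_bound hp0 hp1 H hyp A E (fun e he => SimpleGraph.mem_edgeFinset.1 (hE he)) hA Γ hΓ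
      hinj).trans (by gcongr)⟩
  have hR : Sparse.Range C := ⟨hlow, hhigh⟩
  have hDX : C.D X = DF := filter_true_of_mem fun e he a ha =>
    hP.sub e he a (Sym2.mem_toFinset.1 ha)
  have h := Sparse.emb_bound hH hR X
  rw [hDX] at h
  refine le_trans (Nat.cast_le.2 (card_le_card fun g hg => ?_)) h
  obtain ⟨h1, h2, h3⟩ := mem_embs.1 hg
  exact Setup.mem_emb.2 ⟨h1, h2, fun e he => h3 e (hDX ▸ he)⟩

/-- With `q = max (p_E, log n / n)` both thresholds are within `(log n) ^ (K log (n q) / log n)`
of `q`, the containment threshold with one further logarithm; so the conjectured bound holds,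
with no extra logarithm, for `log n / (A n) ≤ p_E ≤ n ^ (-1 + A / log log n)`. -/
theorem result :
    (∃ K : ℝ, ∀ n v : ℕ, 3 ≤ n → v ≤ n → ∀ H : SimpleGraph (Fin v), H ≠ ⊥ →
      pc n H ≤ K * max (pE n H) (Real.log n / n)
          * Real.log n ^ (K * Real.log (n * max (pE n H) (Real.log n / n)) / Real.log n)
          * Real.log n ∧
        pETilde n H ≤ K * max (pE n H) (Real.log n / n)
          * Real.log n ^ (K * Real.log (n * max (pE n H) (Real.log n / n)) / Real.log n)) ∧
    ∀ A : ℝ, ∃ B : ℝ, ∀ n v : ℕ, 2 ≤ n → v ≤ n → ∀ H : SimpleGraph (Fin v), H ≠ ⊥ →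
      Real.log n ≤ A * (n * pE n H) →
      Real.log (n * pE n H) * Real.log (Real.log n) ≤ A * Real.log n →
      pc n H ≤ B * pE n H * Real.log n ∧ pETilde n H ≤ B * pE n H := by
  obtain ⟨M₀, hM₀, hthr⟩ := thresholds_of_emb
  obtain ⟨K₁, hpc⟩ := pc_le
  obtain ⟨K₂, hpt⟩ := pETilde_le
  set K₀ := max (max K₁ K₂) 0 with hK₀
  have hK₀0 : 0 ≤ K₀ := le_max_right _ _
  have base : ∀ n v : ℕ, 2 ≤ n → v ≤ n → ∀ H : SimpleGraph (Fin v), H ≠ ⊥ →
      pc n H ≤ K₀ * pE n H * Real.log n * Real.log n ∧
        pETilde n H ≤ K₀ * pE n H * Real.log n := by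
    intro n v hn hv H he
    have hn2 : (2 : ℝ) ≤ n := by exact_mod_cast hn
    have hl : Real.log 2 ≤ Real.log n := Real.log_le_log two_pos hn2
    have hlt := Real.log_two_gt_d9
    have hp := (pE_spec hv H).1.1
    constructor
    · refine (hpc n v hn hv H he 1 zero_le_one le_rfl (Or.inl le_rfl) (1 + Real.log n) (Real.log n)
        (by linarith) le_rfl (by linarith) (Or.inl le_rfl)).trans ?_
      rw [Real.rpow_one]
      gcongr
      exact (le_max_left _ _).trans (le_max_left _ _)
    · refine (hpt n v hn hv H he 1 zero_le_one le_rfl (Or.inl le_rfl) (1 + Real.log n) (Real.log n)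
        (by linarith) le_rfl (by linarith) (Or.inl le_rfl)).trans ?_
      rw [Real.rpow_one]
      gcongr
      exact (le_max_right _ _).trans (le_max_left _ _)
  set K : ℝ := max (M₀ * Real.exp 400) (4 * K₀) + 800 with hK
  have hKM : M₀ * Real.exp 400 ≤ K := by linarith [le_max_left (M₀ * Real.exp 400) (4 * K₀)]
  have hKK : 4 * K₀ ≤ K := by linarith [le_max_right (M₀ * Real.exp 400) (4 * K₀)]
  have hK800 : (800 : ℝ) ≤ K := by linarith [le_max_right (M₀ * Real.exp 400) (4 * K₀)]
  have main : ∀ n v : ℕ, 3 ≤ n → v ≤ n → ∀ H : SimpleGraph (Fin v), H ≠ ⊥ →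
      pc n H ≤ K * max (pE n H) (Real.log n / n)
          * Real.log n ^ (K * Real.log (n * max (pE n H) (Real.log n / n)) / Real.log n)
          * Real.log n ∧
        pETilde n H ≤ K * max (pE n H) (Real.log n / n)
          * Real.log n ^ (K * Real.log (n * max (pE n H) (Real.log n / n)) / Real.log n) := by
    intro n v hn3 hv H he
    have hn : 2 ≤ n := by omega
    have hn3' : (3 : ℝ) ≤ n := by exact_mod_cast hn3
    set l := Real.log n with hl
    have hl1 : 1 < l := by
      rw [hl, Real.lt_log_iff_exp_lt (by linarith)]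
      linarith [Real.exp_one_lt_d9]
    set q := max (pE n H) (l / n) with hqdef
    set c := Real.log ((n : ℝ) * q) with hc
    set g := Real.log l with hg
    have hg0 : 0 < g := Real.log_pos hl1
    have hp := pE_pos hn hv H he
    have hq0 : 0 < q := lt_max_of_lt_left hp
    have hlow : l ≤ (n : ℝ) * q := by
      have := mul_le_mul_of_nonneg_left (le_max_right (pE n H) (l / n))
        (show (0 : ℝ) ≤ n by linarith)
      rw [mul_div_cancel₀ _ (show (n : ℝ) ≠ 0 by linarith)] at this
      exact this
    have hcg : g ≤ c := Real.log_le_log (by linarith) hlow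
    rw [Real.rpow_def_of_pos (by linarith), ← hg]
    set Y := c * g / l with hY
    have hY0 : 0 ≤ Y := div_nonneg (mul_nonneg (by linarith) hg0.le) (by linarith)
    rw [show g * (K * c / l) = K * Y by rw [hY]; ring]
    have hexp1 : 1 ≤ Real.exp (K * Y) :=
      Real.one_le_exp (mul_nonneg (by linarith) hY0)
    by_cases hhigh : 4 * (1 + c) ≤ l
    · set L₀ := Real.exp (400 * (1 + (1 + c) * g / l)) with hL₀
      have hL1 : 1 ≤ L₀ := Real.one_le_exp (by
        have : 0 ≤ (1 + c) * g / l :=
          div_nonneg (mul_nonneg (by linarith) hg0.le) (by linarith)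
        linarith)
      have hL : 1 ≤ L₀ * q / pE n H := by
        rw [le_div_iff₀ hp, one_mul]
        exact (le_max_left _ _).trans (le_mul_of_one_le_left hq0.le hL1)
      have key := hthr n v hn hv H he (L₀ * q / pE n H) hL fun hLq v0 X DF hP => by
        rw [div_mul_cancel₀ _ hp.ne'] at hLq ⊢
        have hqe : Real.exp 1 * q ≤ 1 := by
          refine le_trans (mul_le_mul_of_nonneg_right ?_ hq0.le) hLq
          refine Real.exp_le_exp.2 ?_
          have : 0 ≤ (1 + c) * g / l :=
            div_nonneg (mul_nonneg (by linarith) hg0.le) (by linarith)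
          linarith
        exact emb_at hn hv H hq0 hqe (le_max_left _ _) hlow hhigh v0 X DF hP
      have hexp : L₀ ≤ Real.exp 400 * Real.exp (K * Y) := by
        rw [hL₀, ← Real.exp_add, Real.exp_le_exp]
        have hl4 : 4 ≤ l := by linarith
        have hc1 : 1 ≤ c := by
          refine le_trans ?_ hcg
          rw [hg, Real.le_log_iff_exp_le (by linarith)]
          linarith [Real.exp_one_lt_d9]
        have h1 : (1 + c) * g / l ≤ 2 * Y := by
          rw [hY, ← mul_div_assoc, ← mul_assoc]
          gcongr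
          linarith
        have h2 := mul_le_mul_of_nonneg_right hK800 hY0
        linarith
      have hbound : M₀ * (L₀ * q / pE n H) * pE n H ≤ K * q * Real.exp (K * Y) := by
        rw [mul_assoc, div_mul_cancel₀ _ hp.ne']
        calc M₀ * (L₀ * q) ≤ M₀ * (Real.exp 400 * Real.exp (K * Y) * q) := by gcongr
          _ = M₀ * Real.exp 400 * q * Real.exp (K * Y) := by ring
          _ ≤ _ := by gcongr
      exact ⟨key.1.trans (mul_le_mul_of_nonneg_right hbound (by linarith)), key.2.trans hbound⟩
    · have hle : l ≤ 4 * Real.exp (K * Y) := by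
        rcases le_total l 4 with h4 | h4
        · linarith
        have hc1 : 1 ≤ c := by
          refine le_trans ?_ hcg
          rw [hg, Real.le_log_iff_exp_le (by linarith)]
          linarith [Real.exp_one_lt_d9]
        have hgY : g ≤ K * Y := by
          rw [hY, ← mul_div_assoc, le_div_iff₀ (by linarith), ← mul_assoc, mul_comm g l]
          refine mul_le_mul_of_nonneg_right ?_ hg0.le
          have := mul_le_mul_of_nonneg_right hK800 (show (0 : ℝ) ≤ c by linarith)
          linarith
        have : l ≤ Real.exp (K * Y) := by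
          calc l = Real.exp g := (Real.exp_log (by linarith)).symm
            _ ≤ _ := Real.exp_le_exp.2 hgY
        linarith [Real.exp_pos (K * Y)]
      obtain ⟨h1, h2⟩ := base n v hn hv H he
      have hb : K₀ * pE n H * l ≤ K * q * Real.exp (K * Y) := by
        calc K₀ * pE n H * l ≤ K₀ * q * (4 * Real.exp (K * Y)) := by
              gcongr
              exact le_max_left _ _
          _ = 4 * K₀ * q * Real.exp (K * Y) := by ring
          _ ≤ _ := by gcongr
      exact ⟨h1.trans (mul_le_mul_of_nonneg_right hb (by linarith)), h2.trans hb⟩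
  refine ⟨⟨K, main⟩, fun A => ⟨K * (|A| + 1) * Real.exp (K * (|A| + 4)),
    fun n v hn hv H he hA1 hA2 => ?_⟩⟩
  have hn2 : (2 : ℝ) ≤ n := by exact_mod_cast hn
  have hl2 : Real.log 2 ≤ Real.log n := Real.log_le_log two_pos hn2
  have hlt := Real.log_two_gt_d9
  set l := Real.log n with hl
  have hp := pE_pos hn hv H he
  set a := |A| + 1 with ha
  have ha1 : 1 ≤ a := by linarith [abs_nonneg A]
  have he1 : 1 ≤ Real.exp (K * (|A| + 4)) := Real.one_le_exp (by positivity)
  by_cases hn3 : 3 ≤ n
  swap
  · obtain ⟨h1, h2⟩ := base n v hn hv H he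
    have hl1 : l ≤ 1 := by
      have : n = 2 := by omega
      rw [hl, this]
      push_cast
      linarith [Real.log_two_lt_d9]
    have hb : K₀ * pE n H * l ≤ K * a * Real.exp (K * (|A| + 4)) * pE n H := by
      calc K₀ * pE n H * l ≤ K₀ * pE n H * 1 := by gcongr
        _ ≤ K * a * Real.exp (K * (|A| + 4)) * pE n H := by
            rw [mul_one]
            refine mul_le_mul_of_nonneg_right ?_ hp.le
            have hKa : K ≤ K * a * Real.exp (K * (|A| + 4)) :=
              le_trans (le_mul_of_one_le_right (by linarith) ha1)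
                (le_mul_of_one_le_right (by positivity) he1)
            linarith
    exact ⟨h1.trans (mul_le_mul_of_nonneg_right hb (by linarith)), h2.trans hb⟩
  obtain ⟨h1, h2⟩ := main n v hn3 hv H he
  set q := max (pE n H) (l / n) with hqdef
  have hn3' : (3 : ℝ) ≤ n := by exact_mod_cast hn3
  have hl1 : 1 < l := by
    rw [hl, Real.lt_log_iff_exp_lt (by linarith)]
    linarith [Real.exp_one_lt_d9]
  set g := Real.log l with hg
  have hg0 : 0 < g := Real.log_pos hl1
  have hq : q ≤ a * pE n H := by
    refine max_le (le_mul_of_one_le_left hp.le ha1) ?_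
    rw [div_le_iff₀ (by linarith)]
    have := mul_le_mul_of_nonneg_right (show A ≤ a by linarith [le_abs_self A])
      (show (0 : ℝ) ≤ n * pE n H by positivity)
    linarith
  have hnq : (n : ℝ) * q = max (n * pE n H) l := by
    rw [hqdef, mul_max_of_nonneg _ _ (show (0 : ℝ) ≤ n by linarith),
      mul_div_cancel₀ _ (show (n : ℝ) ≠ 0 by linarith)]
  have hcg : Real.log ((n : ℝ) * q) * g ≤ (|A| + 4) * l := by
    have hA0 : 0 ≤ |A| * l := mul_nonneg (abs_nonneg A) (by linarith)
    have hAl : A * l ≤ |A| * l := mul_le_mul_of_nonneg_right (le_abs_self A) (by linarith)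
    rw [hnq]
    rcases le_total ((n : ℝ) * pE n H) l with h | h
    · rw [max_eq_right h, ← hg]
      have hs : g ≤ 2 * Real.sqrt l := by
        have hS : 0 < Real.sqrt l := Real.sqrt_pos.2 (by linarith)
        have hSS : Real.sqrt l * Real.sqrt l = l := Real.mul_self_sqrt (by linarith)
        have := Real.log_le_sub_one_of_pos hS
        rw [hg, ← hSS, Real.log_mul hS.ne' hS.ne', hSS]
        linarith
      have := mul_le_mul hs hs hg0.le (by positivity)
      have := Real.mul_self_sqrt (show (0 : ℝ) ≤ l by linarith)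
      linarith
    · rw [max_eq_left h]
      linarith
  have hexp : l ^ (K * Real.log ((n : ℝ) * q) / l) ≤ Real.exp (K * (|A| + 4)) := by
    rw [Real.rpow_def_of_pos (by linarith), Real.exp_le_exp, ← hg, ← mul_div_assoc,
      div_le_iff₀ (by linarith)]
    have := mul_le_mul_of_nonneg_left hcg (show (0 : ℝ) ≤ K by linarith)
    linarith
  have hq0 : 0 < q := lt_max_of_lt_left hp
  have hb : K * q * l ^ (K * Real.log ((n : ℝ) * q) / l)
      ≤ K * a * Real.exp (K * (|A| + 4)) * pE n H := by
    calc _ ≤ K * (a * pE n H) * Real.exp (K * (|A| + 4)) := by gcongr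
      _ = _ := by ring
  exact ⟨h1.trans (mul_le_mul_of_nonneg_right hb (by linarith)), h2.trans hb⟩

end Vale.Agent.Results.P064.SparseRange
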