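import Vale.Agent.P064.Linear.Range
import Vale.Agent.Results.P064.SparseRange

/-! The second Kahn-Kalai bound when `p_E = O(1/n)`, and a power saving in general. -/

namespace Vale.Agent.Results.P064.LinearRange

open Vale.Agent.P064 Vale.Agent.P064.Linear

/-- `p~_E` and `p_c / log n` lose at most a fixed power of `1 + n p_E`; in particular the conjectured
bound holds whenever `p_E = O(1/n)`. In all ranges `p_c = O(p_E (log n)^(2-ε))`. -/
theorem result :
    (∃ K : ℝ, ∀ n v : ℕ, 2 ≤ n → v ≤ n → ∀ H : SimpleGraph (Fin v), H ≠ ⊥ →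
      pc n H ≤ K * (1 + n * pE n H) ^ 10 * pE n H * Real.log n ∧
        pETilde n H ≤ K * (1 + n * pE n H) ^ 10 * pE n H) ∧
    ∃ K ε : ℝ, 0 < ε ∧ ∀ n v : ℕ, 2 ≤ n → v ≤ n → ∀ H : SimpleGraph (Fin v), H ≠ ⊥ →
      pc n H ≤ K * pE n H * Real.log n ^ (2 - ε) ∧
        pETilde n H ≤ K * pE n H * Real.log n ^ (1 - ε) := by
  obtain ⟨Kl, hKl, hlin⟩ := linear_range
  refine ⟨⟨Kl, hlin⟩, ?_⟩
  obtain ⟨K₀, hK₀, hweak⟩ := weak_bound
  obtain ⟨K₁, hpc⟩ := pc_le
  obtain ⟨K₂, hpt⟩ := pETilde_le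
  obtain ⟨⟨Ks₀, hsparse⟩, -⟩ := SparseRange.result
  set Ks := max Ks₀ 1 with hKs
  have hKs1 : 1 ≤ Ks := le_max_right _ _
  set ε : ℝ := 1 / (40 * Ks) with hε
  have hε0 : 0 < ε := by positivity
  have hε1 : ε ≤ 1 / 40 := by
    rw [hε]
    exact one_div_le_one_div_of_le (by norm_num) (by linarith)
  set B : ℝ := max (2 ^ 20) ((80 * Ks) ^ 2) with hB
  have hB0 : 0 ≤ B := le_trans (by norm_num) (le_max_left _ _)
  set K : ℝ := 2 * K₀ * B + Kl + 2 * Ks + max K₁ 0 + max K₂ 0 with hK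
  have hp1 := le_max_right K₁ 0
  have hp2 := le_max_right K₂ 0
  have hK0B : 0 ≤ 2 * K₀ * B := by positivity
  refine ⟨K, ε, hε0, fun n v hn hv H he => ?_⟩
  have hq := pE_pos hn hv H he
  set q := pE n H with hqdef
  have hn2 : (2 : ℝ) ≤ n := by exact_mod_cast hn
  set l := Real.log n with hldef
  have hl2 : (1 : ℝ) / 2 < l := by
    linarith [Real.log_two_gt_d9, Real.log_le_log two_pos hn2]
  have hl0 : 0 < l := by linarith
  rw [show (2 : ℝ) - ε = (1 - ε) + 1 by ring, Real.rpow_add hl0, Real.rpow_one]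
  set e := 1 - ε with he'
  have he0 : 0 ≤ e := by linarith
  have he1 : e ≤ 1 := by linarith
  suffices hgoal : ∃ c : ℝ, c ≤ K ∧ pc n H ≤ c * q * l ^ e * l ∧ pETilde n H ≤ c * q * l ^ e by
    obtain ⟨c, hc, h1, h2⟩ := hgoal
    constructor
    · refine h1.trans ?_
      rw [← mul_assoc]
      gcongr
    · refine h2.trans ?_
      gcongr
  by_cases hlB : l ≤ B
  · obtain ⟨h1, h2⟩ := hweak n v hn hv H he
    have hle : (1 : ℝ) / 2 ≤ l ^ e := by
      calc (1 : ℝ) / 2 = (1 / 2) ^ (1 : ℝ) := (Real.rpow_one _).symm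
        _ ≤ (1 / 2) ^ e := Real.rpow_le_rpow_of_exponent_ge (by norm_num) (by norm_num) he1
        _ ≤ _ := Real.rpow_le_rpow (by norm_num) hl2.le he0
    have hb : K₀ * q * l ≤ 2 * K₀ * B * q * l ^ e := by
      calc K₀ * q * l ≤ K₀ * q * (2 * B * (1 / 2)) :=
            mul_le_mul_of_nonneg_left (by linarith) (by positivity)
        _ ≤ K₀ * q * (2 * B * l ^ e) := by gcongr
        _ = _ := by ring
    exact ⟨2 * K₀ * B, by linarith, h1.trans (mul_le_mul_of_nonneg_right hb hl0.le), h2.trans hb⟩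
  rw [not_le] at hlB
  have hl20 : (2 : ℝ) ^ 20 < l := lt_of_le_of_lt (le_max_left _ _) hlB
  have hl1 : 1 ≤ l := by linarith
  set t := l ^ ((1 : ℝ) / 20) with ht
  have ht2 : 2 ≤ t := by
    calc (2 : ℝ) = ((2 : ℝ) ^ 20) ^ ((1 : ℝ) / 20) := by
          rw [← Real.rpow_natCast (2 : ℝ) 20, ← Real.rpow_mul two_pos.le]; norm_num
      _ ≤ t := Real.rpow_le_rpow (by norm_num) hl20.le (by norm_num)
  by_cases hsmall : 1 + (n : ℝ) * q ≤ t
  · obtain ⟨h1, h2⟩ := hlin n v hn hv H he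
    have hb : Kl * (1 + n * q) ^ 10 * q ≤ Kl * q * l ^ e := by
      have : (1 + (n : ℝ) * q) ^ 10 ≤ l ^ e := by
        refine (pow_le_pow_left₀ (by positivity) hsmall 10).trans ?_
        rw [ht, ← Real.rpow_natCast, ← Real.rpow_mul hl0.le]
        exact Real.rpow_le_rpow_of_exponent_le hl1 (by push_cast; linarith)
      calc Kl * (1 + n * q) ^ 10 * q ≤ Kl * l ^ e * q := by gcongr
        _ = _ := by ring
    exact ⟨Kl, by linarith, h1.trans (mul_le_mul_of_nonneg_right hb hl0.le), h2.trans hb⟩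
  rw [not_le] at hsmall
  set qm := max q (l / n) with hqm
  set c := Real.log ((n : ℝ) * qm) with hc
  have hn0 : (0 : ℝ) < n := by linarith
  have hqm2 : qm ≤ 2 * q * l ^ ((19 : ℝ) / 20) := by
    have h19 : 1 ≤ l ^ ((19 : ℝ) / 20) := Real.one_le_rpow hl1 (by norm_num)
    refine max_le ?_ ?_
    · calc q = q * 1 := (mul_one q).symm
        _ ≤ q * l ^ ((19 : ℝ) / 20) := mul_le_mul_of_nonneg_left h19 hq.le
        _ ≤ _ := by
            rw [mul_assoc]
            linarith [mul_nonneg hq.le (le_trans zero_le_one h19)]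
    · rw [div_le_iff₀ hn0]
      calc l = t * l ^ ((19 : ℝ) / 20) := by
            rw [ht, ← Real.rpow_add hl0]; norm_num
        _ ≤ (2 * (n * q)) * l ^ ((19 : ℝ) / 20) := by gcongr; linarith
        _ = _ := by ring
  have hnqm : (n : ℝ) * qm = max ((n : ℝ) * q) l := by
    rw [hqm, mul_max_of_nonneg _ _ hn0.le, mul_div_cancel₀ _ hn0.ne']
  have hc0 : 0 ≤ c := Real.log_nonneg (hnqm ▸ le_max_of_le_right hl1)
  by_cases hmid : Ks * c ≤ l / 40
  · have hn3 : 3 ≤ n := by
      by_contra hcon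
      have : n = 2 := by omega
      have : l ≤ 1 := by
        rw [hldef, this]; push_cast; linarith [Real.log_two_lt_d9]
      linarith
    obtain ⟨h1, h2⟩ := hsparse n v hn3 hv H he
    have hqm0 : 0 < qm := lt_max_of_lt_left hq
    have hexp : l ^ (Ks₀ * c / l) ≤ l ^ ((1 : ℝ) / 40) := by
      refine Real.rpow_le_rpow_of_exponent_le hl1 ?_
      rw [div_le_iff₀ hl0]
      have := mul_le_mul_of_nonneg_right (le_max_left Ks₀ 1) hc0
      linarith
    have hb : Ks₀ * qm * l ^ (Ks₀ * c / l) ≤ 2 * Ks * q * l ^ e := by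
      calc Ks₀ * qm * l ^ (Ks₀ * c / l) ≤ Ks * qm * l ^ (Ks₀ * c / l) := by
            gcongr; exact le_max_left _ _
        _ ≤ Ks * (2 * q * l ^ ((19 : ℝ) / 20)) * l ^ ((1 : ℝ) / 40) := by gcongr
        _ = 2 * Ks * q * (l ^ ((19 : ℝ) / 20) * l ^ ((1 : ℝ) / 40)) := by ring
        _ ≤ _ := by
            rw [← Real.rpow_add hl0]
            refine mul_le_mul_of_nonneg_left
              (Real.rpow_le_rpow_of_exponent_le hl1 ?_) (by positivity)
            rw [he']; linarith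
    exact ⟨2 * Ks, by linarith, h1.trans (mul_le_mul_of_nonneg_right hb hl0.le), h2.trans hb⟩
  rw [not_le] at hmid
  have hql : l < (n : ℝ) * q := by
    by_contra hcon
    rw [not_lt] at hcon
    rw [hc, hnqm, max_eq_right hcon] at hmid
    have hsl : Real.log l ≤ 2 * Real.sqrt l := by
      have hs : 0 < Real.sqrt l := Real.sqrt_pos.2 hl0
      have h' := Real.log_le_sub_one_of_pos hs
      rw [Real.log_sqrt hl0.le] at h'
      linarith
    have hbig : 80 * Ks < Real.sqrt l :=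
      (Real.lt_sqrt (by linarith)).2 (lt_of_le_of_lt (le_max_right _ _) hlB)
    have := mul_le_mul_of_nonneg_left hsl (show (0 : ℝ) ≤ Ks by linarith)
    have := mul_lt_mul_of_pos_right hbig (Real.sqrt_pos.2 hl0)
    rw [Real.mul_self_sqrt hl0.le] at this
    linarith
  have hs : -Real.log q ≤ e * l := by
    rw [hc, hnqm, max_eq_left hql.le, Real.log_mul hn0.ne' hq.ne', ← hldef] at hmid
    have hεl : Ks * (ε * l) = l / 40 := by
      rw [hε]; field_simp
    have := lt_of_mul_lt_mul_left (hεl.trans_lt hmid) (show (0 : ℝ) ≤ Ks by linarith)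
    rw [he']
    linarith
  refine ⟨max K₁ 0 + max K₂ 0, by linarith, ?_, ?_⟩
  · refine (hpc n v hn hv H he e he0 he1 (Or.inr hs) (1 + l) l (by linarith) le_rfl (by linarith)
      (Or.inl le_rfl)).trans ?_
    rw [mul_right_comm _ l (l ^ e)]
    gcongr
    linarith [le_max_left K₁ 0]
  · refine (hpt n v hn hv H he e he0 he1 (Or.inr hs) (1 + l) l (by linarith) le_rfl (by linarith)
      (Or.inl le_rfl)).trans ?_
    gcongr
    linarith [le_max_left K₂ 0]

end Vale.Agent.Results.P064.LinearRange
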