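import Vale.Agent.P064.Tw.Count
import Vale.Agent.P064.Tw.Plumb

/-! The second Kahn-Kalai bound for graphs of bounded tree-width. -/

namespace Vale.Agent.Results.P064.Treewidth

open Finset Vale.Agent.P064 Vale.Agent.P064.Tw
open scoped Classical

lemma exists_few_nbrs {v : ℕ} {H : SimpleGraph (Fin v)} (hH : H.IsAcyclic) (s : Finset (Fin v))
    (hs : s.Nonempty) : ∃ z ∈ s, (s.filter fun a => H.Adj a z).card ≤ 1 := by
  obtain ⟨z₀, hz₀⟩ := hs
  by_cases h1 : s.card ≤ 1
  · exact ⟨z₀, hz₀, (card_filter_le _ _).trans h1⟩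
  haveI : Nontrivial (s : Set (Fin v)) := by
    rw [Set.nontrivial_coe_sort]
    exact Finset.one_lt_card_iff_nontrivial.1 (not_le.1 h1)
  obtain ⟨T, hle, -, hT⟩ := (SimpleGraph.connected_top (V := (s : Set (Fin v))))
    |>.exists_isTree_le_of_le_of_isAcyclic le_top (hH.induce (s : Set (Fin v)))
  obtain ⟨⟨z, hz⟩, hdeg⟩ := hT.exists_vert_degree_one_of_nontrivial
  refine ⟨z, hz, ?_⟩
  rw [← hdeg, ← T.card_neighborFinset_eq_degree]
  refine card_le_card_of_injOn (fun a => if h : a ∈ s then ⟨a, h⟩ else ⟨z, hz⟩) (fun a ha => ?_)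
    fun a ha b hb h => ?_
  · obtain ⟨has, had⟩ := mem_filter.1 ha
    simp only [dif_pos has]
    rw [mem_coe, SimpleGraph.mem_neighborFinset]
    exact hle (show (H.induce (s : Set (Fin v))).Adj ⟨z, hz⟩ ⟨a, has⟩ from had.symm)
  · simp only [dif_pos (mem_filter.1 ha).1, dif_pos (mem_filter.1 hb).1] at h
    exact congrArg Subtype.val h

/-- Forests have tree-width at most one. -/
theorem forest_width {v : ℕ} {H : SimpleGraph (Fin v)} (hH : H.IsAcyclic) : TreewidthLE 1 H := by
  suffices key : ∀ (m : ℕ) (s : Finset (Fin v)), s.card = m → ∃ ord : Fin v → ℕ,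
      Set.InjOn ord s ∧ (∀ z ∈ s, ord z < m) ∧
        ∀ z ∈ s, (s.filter fun a => H.Adj a z ∧ ord a < ord z).card ≤ 1 by
    obtain ⟨ord, h1, -, h3⟩ := key _ univ rfl
    refine ⟨H, ord, fun a b h => h1 (mem_coe.2 (mem_univ a)) (mem_coe.2 (mem_univ b)) h, le_rfl,
      fun z => ⟨?_, fun a b ha hao hb hbo hab => ?_⟩⟩
    · rw [Set.ncard_eq_toFinset_card']
      refine le_trans (le_of_eq ?_) (h3 z (mem_univ z))
      congr 1
      ext a
      simp
    · exact absurd (card_le_one.1 (h3 z (mem_univ z)) a (mem_filter.2 ⟨mem_univ a, ha, hao⟩)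
        b (mem_filter.2 ⟨mem_univ b, hb, hbo⟩)) hab
  intro m
  induction m with
  | zero => exact fun s hs => ⟨fun _ => 0, by simp [card_eq_zero.1 hs]⟩
  | succ m ih =>
    intro s hs
    obtain ⟨z, hz, hfew⟩ := exists_few_nbrs hH s (card_pos.1 (by omega))
    obtain ⟨ord, h1, h2, h3⟩ := ih (s.erase z) (by rw [card_erase_of_mem hz]; omega)
    have hlt : ∀ a ∈ s, a ≠ z → ord a < m := fun a ha h => h2 a (mem_erase.2 ⟨h, ha⟩)
    refine ⟨Function.update ord z m, fun a ha b hb hab => ?_, fun a ha => ?_, fun a ha => ?_⟩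
    · by_cases ha' : a = z <;> by_cases hb' : b = z
      · exact ha'.trans hb'.symm
      · rw [ha', Function.update_self, Function.update_of_ne hb'] at hab
        have := hlt b hb hb'
        omega
      · rw [hb', Function.update_self, Function.update_of_ne ha'] at hab
        have := hlt a ha ha'
        omega
      · rw [Function.update_of_ne ha', Function.update_of_ne hb'] at hab
        exact h1 (mem_coe.2 (mem_erase.2 ⟨ha', ha⟩)) (mem_coe.2 (mem_erase.2 ⟨hb', hb⟩)) hab
    · by_cases ha' : a = z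
      · rw [ha', Function.update_self]; omega
      · rw [Function.update_of_ne ha']
        have := hlt a ha ha'
        omega
    · by_cases ha' : a = z
      · subst ha'
        exact le_trans (card_le_card fun b hb => mem_filter.2
          ⟨(mem_filter.1 hb).1, (mem_filter.1 hb).2.1⟩) hfew
      · refine le_trans (card_le_card fun b hb => ?_) (h3 a (mem_erase.2 ⟨ha', ha⟩))
        obtain ⟨hbs, hba, hbo⟩ := mem_filter.1 hb
        rw [Function.update_of_ne ha'] at hbo
        have hbz : b ≠ z := fun h => by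
          rw [h, Function.update_self] at hbo
          have := hlt a ha ha'
          omega
        rw [Function.update_of_ne hbz] at hbo
        exact mem_filter.2 ⟨mem_erase.2 ⟨hbz, hbs⟩, hba, hbo⟩

/-- Bounded tree-width, in particular every forest, has both thresholds as conjectured. -/
theorem result : ∃ K : ℝ,
    (∀ k n v : ℕ, 2 ≤ n → v ≤ n → ∀ H : SimpleGraph (Fin v), H ≠ ⊥ → TreewidthLE k H →
      pc n H ≤ K * ((k : ℝ) + 1) ^ 10 * pE n H * Real.log n ∧
        pETilde n H ≤ K * ((k : ℝ) + 1) ^ 10 * pE n H) ∧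
    ∀ n v : ℕ, 2 ≤ n → v ≤ n → ∀ H : SimpleGraph (Fin v), H ≠ ⊥ → H.IsAcyclic →
      pc n H ≤ K * pE n H * Real.log n ∧ pETilde n H ≤ K * pE n H := by
  obtain ⟨M, hM, hthr⟩ := thresholds_of_emb
  set A : ℝ := M * 10 ^ 20 with hA
  have main : ∀ k n v : ℕ, 2 ≤ n → v ≤ n → ∀ H : SimpleGraph (Fin v), H ≠ ⊥ → TreewidthLE k H →
      pc n H ≤ A * ((k : ℝ) + 1) ^ 10 * pE n H * Real.log n ∧
        pETilde n H ≤ A * ((k : ℝ) + 1) ^ 10 * pE n H := by
    intro k n v hn hv H he hk
    have hk1 : (1 : ℝ) ≤ (k : ℝ) + 1 := by linarith [(k.cast_nonneg : (0 : ℝ) ≤ k)]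
    have hbig : (k : ℝ) + 1 ≤ twLoss k := by
      calc (k : ℝ) + 1 = 1 * ((k : ℝ) + 1) ^ 1 := by ring
        _ ≤ 10 ^ 20 * ((k : ℝ) + 1) ^ 10 :=
          mul_le_mul (by norm_num) (pow_le_pow_right₀ hk1 (by norm_num)) (by positivity)
            (by norm_num)
    have h := hthr n v hn hv H he (twLoss k) (le_trans hk1 hbig) fun hL v0 X DF hP => by
      have hq := pE_pos hn hv H he
      have hqk : ((k : ℝ) + 1) * pE n H ≤ 1 :=
        le_trans (mul_le_mul_of_nonneg_right hbig hq.le) hL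
      obtain ⟨C, hC, hCk, hCn, hCq, hCE, hCv⟩ :=
        frame_of hn hv hq hqk H (pE_spec hv H).2 hk v0
      have := emb_le (C := C) hC hP
      rw [hCk, hCn, hCq, hCE, hCv] at this
      exact this
    have e : M * twLoss k = A * ((k : ℝ) + 1) ^ 10 := by rw [hA, twLoss, mul_assoc]
    rwa [e] at h
  refine ⟨A * 2 ^ 10, fun k n v hn hv H he hk => ?_, fun n v hn hv H he hac => ?_⟩
  · have hq := (pE_spec hv H).1.1
    have hlog : 0 ≤ Real.log n := Real.log_nonneg (by exact_mod_cast le_trans (by norm_num) hn)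
    have hA0 : 0 ≤ A := by positivity
    have hge : A ≤ A * 2 ^ 10 := le_mul_of_one_le_right hA0 (by norm_num)
    obtain ⟨h1, h2⟩ := main k n v hn hv H he hk
    exact ⟨h1.trans (by gcongr), h2.trans (by gcongr)⟩
  · obtain ⟨h1, h2⟩ := main 1 n v hn hv H he (forest_width hac)
    norm_num at h1 h2 ⊢
    exact ⟨h1, h2⟩

end Vale.Agent.Results.P064.Treewidth
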